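import Vale.Agent.P022.H138.L3.Defs

/-!
# P022-L3, [WD-FAM]: the submodule `Wf M n w e` of `V(3, M, n)`

On it `D_b = ε(b) b^(w - 2e)`; it contains the coefficient `j = w - e` of the restriction of every
cocycle on `Γ₁(3)` with values in the polynomials of degree `≤ w` (`w` odd, `n ≤ M`).
-/

set_option autoImplicit false

open scoped MatrixGroups
open NumberField

noncomputable section

namespace Vale.Agent.P022.H724.L3

open Vale.Agent.P022 Vale.Agent.P022.L3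

/-- the odd character mod 3 (on integers prime to 3) -/
def eps (b : ℤ) : ℤ := if b % 3 = 1 then 1 else -1

theorem eps_sq (b : ℤ) : eps b * eps b = 1 := by
  unfold eps
  split_ifs <;> norm_num

theorem eps_one : eps 1 = 1 := by
  unfold eps
  norm_num

theorem eps_congr {a b : ℤ} (h : (3 : ℤ) ∣ a - b) : eps a = eps b := by
  have : a % 3 = b % 3 := (Int.emod_emod_of_dvd a (dvd_refl 3)).symm.trans
    (by rw [Int.emod_emod_of_dvd a (dvd_refl 3)]; omega)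
  unfold eps
  rw [this]

theorem eps_mul {a b : ℤ} (ha : ¬ (3 : ℤ) ∣ a) (hb : ¬ (3 : ℤ) ∣ b) :
    eps (a * b) = eps a * eps b := by
  have h1 : a % 3 = 1 ∨ a % 3 = 2 := by omega
  have h2 : b % 3 = 1 ∨ b % 3 = 2 := by omega
  unfold eps
  rw [Int.mul_emod]
  rcases h1 with h1 | h1 <;> rcases h2 with h2 | h2 <;> rw [h1, h2] <;> norm_num

/-- **the submodule**: `b^(2e) D_b = ε(b) b^w` for all `b` prime to 6 -/
def Wf (M n w e : ℕ) : AddSubgroup (V 3 M n) where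
  carrier := {φ | ∀ b : ℤ, IsCoprime b 6 → ∀ δ : SL(2, ℤ), IsDel 3 M b δ → ∀ γ : SL(2, ℤ),
    ((b ^ (2 * e) : ℤ) : ZMod (2 ^ n)) * φ.1 (δ * γ * δ⁻¹) =
      ((eps b * b ^ w : ℤ) : ZMod (2 ^ n)) * φ.1 γ}
  zero_mem' := fun b _ δ _ γ => by simp
  add_mem' {x y} hx hy b hb δ hδ γ := by
    have h1 := hx b hb δ hδ γ
    have h2 := hy b hb δ hδ γ
    simp only [AddSubgroup.coe_add, Pi.add_apply, mul_add] at h1 h2 ⊢
    rw [h1, h2]
  neg_mem' {x} hx b hb δ hδ γ := by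
    have h1 := hx b hb δ hδ γ
    simp only [AddSubgroup.coe_neg, Pi.neg_apply, mul_neg] at h1 ⊢
    rw [h1]

theorem mem_Wf {M n w e : ℕ} {φ : V 3 M n} : φ ∈ Wf M n w e ↔
    ∀ b : ℤ, IsCoprime b 6 → ∀ δ : SL(2, ℤ), IsDel 3 M b δ → ∀ γ : SL(2, ℤ),
      ((b ^ (2 * e) : ℤ) : ZMod (2 ^ n)) * φ.1 (δ * γ * δ⁻¹) =
        ((eps b * b ^ w : ℤ) : ZMod (2 ^ n)) * φ.1 γ := Iff.rfl

/-- the elements `δ_b` exist -/
theorem exists_del (M : ℕ) {b : ℤ} (hb : IsCoprime b 6) : ∃ δ : SL(2, ℤ), IsDel 3 M b δ := by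
  have h2 : IsCoprime b (2 : ℤ) := hb.of_isCoprime_of_dvd_right ⟨3, by norm_num⟩
  have h3 : IsCoprime b (3 : ℤ) := hb.of_isCoprime_of_dvd_right ⟨2, by norm_num⟩
  have h4 : IsCoprime b (2 ^ M * (3 * 2 ^ M) : ℤ) :=
    (h2.pow_right).mul_right (h3.mul_right h2.pow_right)
  obtain ⟨u, v, huv⟩ := h4
  refine ⟨⟨!![u, -(v * 2 ^ M); 3 * 2 ^ M, b], ?_⟩, ?_, ?_, ?_⟩
  · rw [Matrix.det_fin_two_of]
    linear_combination huv
  · refine ⟨1, ?_⟩
    simp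
  · refine ⟨-v, ?_⟩
    simp [mul_comm]
  · refine ⟨0, ?_⟩
    simp

end Vale.Agent.P022.H724.L3
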