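import Mathlib

/-!
# P022-L3, chapter G: holomorphic `N`-th roots on the upper half plane (helper724)
-/

open Set Filter Topology Metric

namespace Vale.Agent.P022.H724.L3

/-- A continuous `N`-th root of a differentiable function is differentiable where it does not
vanish. -/
theorem diff_root {f g : ℂ → ℂ} {N : ℕ} (hN : 0 < N) {z : ℂ} (hf : ContinuousAt f z)
    (hg : DifferentiableAt ℂ g z) (h : ∀ᶠ w in 𝓝 z, f w ^ N = g w) (hz : f z ≠ 0) :
    DifferentiableAt ℂ f z := by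
  have hS : Tendsto (fun w => ∑ k ∈ Finset.range N, f w ^ k * f z ^ (N - 1 - k)) (𝓝[≠] z)
      (𝓝 (∑ k ∈ Finset.range N, f z ^ k * f z ^ (N - 1 - k))) := by
    apply tendsto_finsetSum
    intro k _
    exact ((hf.tendsto.mono_left nhdsWithin_le_nhds).pow k).mul_const _
  have e : ∑ k ∈ Finset.range N, f z ^ k * f z ^ (N - 1 - k) = N * f z ^ (N - 1) := by
    rw [Finset.sum_congr rfl (g := fun _ => f z ^ (N - 1))]
    · simp
    · intro k hk
      rw [← pow_add]
      congr 1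
      have := Finset.mem_range.1 hk
      omega
  have hne : ∑ k ∈ Finset.range N, f z ^ k * f z ^ (N - 1 - k) ≠ 0 := by
    rw [e]
    have : (N : ℂ) ≠ 0 := by exact_mod_cast hN.ne'
    exact mul_ne_zero this (pow_ne_zero _ hz)
  have hgd := hg.hasDerivAt
  rw [hasDerivAt_iff_tendsto_slope] at hgd
  have key : HasDerivAt f (deriv g z / ∑ k ∈ Finset.range N, f z ^ k * f z ^ (N - 1 - k)) z := by
    rw [hasDerivAt_iff_tendsto_slope]
    refine (hgd.div hS hne).congr' ?_
    have h1 : ∀ᶠ w in 𝓝[≠] z, f w ^ N = g w := h.filter_mono nhdsWithin_le_nhds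
    have h2 : ∀ᶠ w in 𝓝[≠] z, ∑ k ∈ Finset.range N, f w ^ k * f z ^ (N - 1 - k) ≠ 0 :=
      hS.eventually_ne hne
    filter_upwards [h1, h2] with w hw1 hw2
    have h3 := h.self_of_nhds
    simp only [Pi.div_apply, slope_def_field]
    rw [← hw1, ← h3, ← Commute.geom_sum₂_mul (Commute.all _ _)]
    field_simp
  exact key.differentiableAt

/-- A holomorphic function without zeros on a ball has a holomorphic `N`-th root. -/
theorem root_ball {g : ℂ → ℂ} {N : ℕ} (hN : 0 < N) {c : ℂ} {r : ℝ} (hr : 0 < r)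
    (hg : DifferentiableOn ℂ g (ball c r)) (h0 : ∀ z ∈ ball c r, g z ≠ 0) :
    ∃ h : ℂ → ℂ, DifferentiableOn ℂ h (ball c r) ∧ ∀ z ∈ ball c r, h z ^ N = g z := by
  have hc : Convex ℝ (ball c r) := convex_ball c r
  have hs : IsSimplyConnected (ball c r) := by
    have := hc.contractibleSpace ⟨c, mem_ball_self hr⟩
    exact SimplyConnectedSpace.ofContractible _
  obtain ⟨f, hf, hfN⟩ := Complex.exists_continuousOn_pow_eq hs isOpen_ball hg.continuousOn
    (by rintro ⟨z, hz, hz0⟩; exact h0 z hz hz0) hN.ne'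
  refine ⟨f, fun z hz => ?_, fun z _ => hfN z⟩
  have hn := isOpen_ball.mem_nhds hz
  refine (diff_root hN (hf.continuousAt hn) ((hg z hz).differentiableAt hn)
    (Eventually.of_forall hfN) ?_).differentiableWithinAt
  intro h
  apply h0 z hz
  rw [← hfN z, h, zero_pow hN.ne']

/-- Division by a power of `z - a`. -/
theorem fac {U : Set ℂ} (hU : IsOpen U) {F : ℂ → ℂ} (hF : DifferentiableOn ℂ F U) {a : ℂ}
    (ha : a ∈ U) {n : ℕ} (hn : 0 < n) (ho : analyticOrderAt F a = n) :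
    ∃ G : ℂ → ℂ, DifferentiableOn ℂ G U ∧ G a ≠ 0 ∧ (∀ z, F z = (z - a) ^ n * G z) ∧
      (∀ z ∈ U, z ≠ a → analyticOrderAt G z = analyticOrderAt F z) := by
  classical
  have hFa : AnalyticAt ℂ F a := hF.analyticAt (hU.mem_nhds ha)
  obtain ⟨g, hg, hga, he⟩ := (hFa.analyticOrderAt_eq_natCast).1 ho
  have hF0 : F a = 0 := by
    rw [he.self_of_nhds]; simp [hn.ne']
  let G : ℂ → ℂ := Function.update (fun z => F z / (z - a) ^ n) a (g a)
  have hGa : G a = g a := by simp [G]
  have hGz : ∀ z, z ≠ a → G z = F z / (z - a) ^ n := fun z hz => by simp [G, hz]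
  have hmul : ∀ z, F z = (z - a) ^ n * G z := by
    intro z
    by_cases hz : z = a
    · subst hz; simp [hF0, hn.ne']
    · rw [hGz z hz]
      have : (z - a) ^ n ≠ 0 := pow_ne_zero _ (sub_ne_zero.2 hz)
      field_simp
  have hea : G =ᶠ[𝓝 a] g := by
    filter_upwards [he] with z hz
    by_cases hza : z = a
    · subst hza; exact hGa
    · rw [hGz z hza, hz, smul_eq_mul]
      have : (z - a) ^ n ≠ 0 := pow_ne_zero _ (sub_ne_zero.2 hza)
      field_simp
  have hGd : DifferentiableOn ℂ G U := by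
    intro z hz
    by_cases hza : z = a
    · subst hza
      exact (hg.differentiableAt.congr_of_eventuallyEq hea).differentiableWithinAt
    · have h1 : DifferentiableAt ℂ (fun z => F z / (z - a) ^ n) z := by
        refine ((hF z hz).differentiableAt (hU.mem_nhds hz)).div (by fun_prop) ?_
        exact pow_ne_zero _ (sub_ne_zero.2 hza)
      refine (h1.congr_of_eventuallyEq ?_).differentiableWithinAt
      filter_upwards [isOpen_ne.mem_nhds hza] with w hw
      exact hGz w hw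
  refine ⟨G, hGd, by rw [hGa]; exact hga, hmul, fun z hz hza => ?_⟩
  have h1 : AnalyticAt ℂ (fun z : ℂ => (z - a) ^ n) z := by fun_prop
  have h2 : AnalyticAt ℂ G z := hGd.analyticAt (hU.mem_nhds hz)
  have h3 : F = (fun z : ℂ => (z - a) ^ n) * G := funext fun z => hmul z
  rw [h3, analyticOrderAt_mul h1 h2]
  have h4 : analyticOrderAt (fun z : ℂ => (z - a) ^ n) z = 0 := by
    rw [h1.analyticOrderAt_eq_zero]
    exact pow_ne_zero _ (sub_ne_zero.2 hza)
  rw [h4, zero_add]

/-- The `N`-th root on a ball, with finitely many zeros. -/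
theorem root_fin {U : Set ℂ} (hU : IsOpen U) {N : ℕ} (hN : 0 < N) {c : ℂ} {r : ℝ} (hr : 0 < r)
    (hb : ball c r ⊆ U) (n : ℕ) : ∀ F : ℂ → ℂ, DifferentiableOn ℂ F U →
      {z | z ∈ ball c r ∧ F z = 0}.Finite → {z | z ∈ ball c r ∧ F z = 0}.ncard = n →
      (∀ z ∈ ball c r, ∃ m : ℕ, analyticOrderAt F z = (N * m : ℕ)) →
      ∃ h : ℂ → ℂ, DifferentiableOn ℂ h (ball c r) ∧ ∀ z ∈ ball c r, h z ^ N = F z := by
  induction n with
  | zero =>
    intro F hF hfin h0 _
    have hem : {z | z ∈ ball c r ∧ F z = 0} = ∅ := (Set.ncard_eq_zero hfin).1 h0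
    exact root_ball hN hr (hF.mono hb) fun z hz hz0 =>
      (Set.eq_empty_iff_forall_notMem.1 hem z) ⟨hz, hz0⟩
  | succ n ih =>
    intro F hF hfin hcard ho
    have hne : {z | z ∈ ball c r ∧ F z = 0}.Nonempty := by
      rw [← Set.ncard_pos hfin, hcard]; omega
    obtain ⟨a, ha, ha0⟩ := hne
    obtain ⟨m, hm⟩ := ho a ha
    have hm0 : 0 < N * m := by
      rcases Nat.eq_zero_or_pos (N * m) with h | h
      · rw [h] at hm
        have hFa : AnalyticAt ℂ F a := hF.analyticAt (hU.mem_nhds (hb ha))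
        have : F a ≠ 0 := by
          rw [← hFa.analyticOrderAt_eq_zero]
          simpa using hm
        exact absurd ha0 this
      · exact h
    obtain ⟨G, hG, hGa, hmul, hord⟩ := fac hU hF (hb ha) hm0 hm
    have hset : {z | z ∈ ball c r ∧ F z = 0} = insert a {z | z ∈ ball c r ∧ G z = 0} := by
      ext z
      simp only [Set.mem_ofPred_eq, Set.mem_insert_iff]
      constructor
      · rintro ⟨h1, h2⟩
        by_cases hz : z = a
        · exact Or.inl hz
        · refine Or.inr ⟨h1, ?_⟩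
          rw [hmul z] at h2
          exact (mul_eq_zero.1 h2).resolve_left (pow_ne_zero _ (sub_ne_zero.2 hz))
      · rintro (rfl | ⟨h1, h2⟩)
        · exact ⟨ha, ha0⟩
        · exact ⟨h1, by rw [hmul z, h2, mul_zero]⟩
    have hfinG : {z | z ∈ ball c r ∧ G z = 0}.Finite :=
      hfin.subset (by rw [hset]; exact Set.subset_insert _ _)
    have hnot : a ∉ {z | z ∈ ball c r ∧ G z = 0} := fun h => hGa h.2
    have hcG : {z | z ∈ ball c r ∧ G z = 0}.ncard = n := by
      rw [hset, Set.ncard_insert_of_notMem hnot hfinG] at hcard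
      omega
    obtain ⟨h, hh, hhN⟩ := ih G hG hfinG hcG (by
      intro z hz
      by_cases hza : z = a
      · subst hza
        refine ⟨0, ?_⟩
        have : AnalyticAt ℂ G z := hG.analyticAt (hU.mem_nhds (hb hz))
        rw [this.analyticOrderAt_eq_zero.2 hGa]
        simp
      · rw [hord z (hb hz) hza]
        exact ho z hz)
    refine ⟨fun z => (z - a) ^ m * h z, ?_, fun z hz => ?_⟩
    · exact DifferentiableOn.mul (by fun_prop) hh
    · simp only
      rw [mul_pow, hhN z hz, ← pow_mul, hmul z, mul_comm m N]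

/-- Finitely many zeros in a closed ball. -/
theorem fin_zero {U : Set ℂ} (hU : IsOpen U) (hc : IsPreconnected U) {F : ℂ → ℂ}
    (hF : DifferentiableOn ℂ F U) (h0 : ∃ z ∈ U, F z ≠ 0) {c : ℂ} {r : ℝ}
    (hb : closedBall c r ⊆ U) : {z | z ∈ ball c r ∧ F z = 0}.Finite := by
  by_contra hinf
  obtain ⟨z, hz, hacc⟩ := Set.Infinite.exists_accPt_of_subset_isCompact
    (s := {z | z ∈ ball c r ∧ F z = 0}) hinf (isCompact_closedBall c r)
    (fun z hz => ball_subset_closedBall hz.1)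
  have han : AnalyticOnNhd ℂ F U := hF.analyticOnNhd hU
  have hfr : ∃ᶠ w in 𝓝[≠] z, F w = 0 := by
    have := accPt_iff_frequently_nhdsNE.1 hacc
    exact this.mono fun w hw => hw.2
  obtain ⟨w, hw, hw0⟩ := h0
  exact hw0 (han.eqOn_zero_of_preconnected_of_frequently_eq_zero hc (hb hz) hfr hw)

/-- Two `N`-th roots on a connected open set which agree at a point where they do not vanish. -/
theorem root_uniq {V : Set ℂ} (hV : IsOpen V) (hc : IsPreconnected V) {N : ℕ} (hN : 0 < N)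
    {h₁ h₂ : ℂ → ℂ} (d₁ : DifferentiableOn ℂ h₁ V) (d₂ : DifferentiableOn ℂ h₂ V)
    (he : ∀ z ∈ V, h₁ z ^ N = h₂ z ^ N) {a : ℂ} (ha : a ∈ V) (h0 : h₁ a ≠ 0)
    (hab : h₁ a = h₂ a) : Set.EqOn h₁ h₂ V := by
  have a₁ : AnalyticOnNhd ℂ h₁ V := d₁.analyticOnNhd hV
  have a₂ : AnalyticOnNhd ℂ h₂ V := d₂.analyticOnNhd hV
  refine a₁.eqOn_of_preconnected_of_eventuallyEq a₂ hc ha ?_
  have c₁ := (a₁ a ha).continuousAt
  have c₂ := (a₂ a ha).continuousAt
  have h0' : h₂ a ≠ 0 := by rwa [← hab]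
  have hT : ((Polynomial.nthRoots N (1 : ℂ)).toFinset.erase 1 : Set ℂ).Finite :=
    Finset.finite_toSet _
  have hq : ContinuousAt (fun z => h₁ z / h₂ z) a := c₁.div c₂ h0'
  have hq1 : h₁ a / h₂ a = 1 := by rw [hab]; field_simp
  have hev : ∀ᶠ z in 𝓝 a, h₁ z / h₂ z ∉
      ((Polynomial.nthRoots N (1 : ℂ)).toFinset.erase 1 : Set ℂ) := by
    refine hq.eventually (hT.isClosed.isOpen_compl.mem_nhds ?_)
    simp [hq1]
  filter_upwards [hev, hV.mem_nhds ha, c₂.eventually_ne h0'] with z hz hzV hz2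
  have h5 : (h₁ z / h₂ z) ^ N = 1 := by
    rw [div_pow, he z hzV, div_self (pow_ne_zero _ hz2)]
  by_contra hne
  apply hz
  simp only [Finset.coe_erase, Set.mem_sdiff, Finset.mem_coe, Multiset.mem_toFinset,
    Set.mem_singleton_iff]
  refine ⟨(Polynomial.mem_nthRoots hN).2 h5, fun h => hne ?_⟩
  rwa [div_eq_one_iff_eq hz2] at h

/-- The discs. -/
noncomputable def ctr (n : ℕ) : ℂ := ((n : ℝ) + 2 : ℝ) * Complex.I

/-- The radii. -/
noncomputable def rad (n : ℕ) : ℝ := (n : ℝ) + 2 - 1 / ((n : ℝ) + 2)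

theorem rad_pos (n : ℕ) : 0 < rad n := by
  unfold rad
  have h1 : (0 : ℝ) ≤ n := Nat.cast_nonneg n
  have h2 : 1 / ((n : ℝ) + 2) ≤ 1 / 2 := by
    apply one_div_le_one_div_of_le <;> linarith
  linarith

theorem closedBall_sub (n : ℕ) : closedBall (ctr n) (rad n) ⊆ {z : ℂ | 0 < z.im} := by
  intro z hz
  have h1 : (0 : ℝ) ≤ n := Nat.cast_nonneg n
  have h2 : 0 < 1 / ((n : ℝ) + 2) := by positivity
  have h3 : |(z - ctr n).im| ≤ ‖z - ctr n‖ := Complex.abs_im_le_norm _
  have h4 : ‖z - ctr n‖ ≤ rad n := by simpa [dist_eq_norm] using hz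
  have h5 : (z - ctr n).im = z.im - ((n : ℝ) + 2) := by
    simp [ctr]
  rw [h5] at h3
  have h6 := (abs_le.1 (h3.trans h4)).1
  unfold rad at h6
  simp only [Set.mem_ofPred_eq]
  linarith

theorem ball_mono {m n : ℕ} (h : m ≤ n) : ball (ctr m) (rad m) ⊆ ball (ctr n) (rad n) := by
  apply ball_subset_ball'
  have h1 : (m : ℝ) ≤ n := by exact_mod_cast h
  have h0 : (0 : ℝ) ≤ m := Nat.cast_nonneg m
  have h2 : dist (ctr m) (ctr n) = (n : ℝ) - m := by
    rw [dist_comm, dist_eq_norm]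
    have : ctr n - ctr m = (((n : ℝ) - m : ℝ) : ℂ) * Complex.I := by
      simp only [ctr]; push_cast; ring
    rw [this, norm_mul, Complex.norm_I, mul_one, Complex.norm_real, Real.norm_eq_abs,
      abs_of_nonneg (by linarith)]
  rw [h2]
  unfold rad
  have h3 : 1 / ((n : ℝ) + 2) ≤ 1 / ((m : ℝ) + 2) := by
    apply one_div_le_one_div_of_le <;> linarith
  linarith

theorem exists_ball {z : ℂ} (hz : 0 < z.im) : ∃ n, z ∈ ball (ctr n) (rad n) := by
  obtain ⟨n, hn⟩ := exists_nat_gt ((Complex.normSq z + 2) / (2 * z.im))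
  refine ⟨n, ?_⟩
  have h0 : (0 : ℝ) ≤ n := Nat.cast_nonneg n
  have h1 : Complex.normSq z + 2 < n * (2 * z.im) := by
    rwa [div_lt_iff₀ (by linarith)] at hn
  rw [mem_ball, dist_eq_norm]
  have h2 : ‖z - ctr n‖ ^ 2 = Complex.normSq z - 2 * z.im * ((n : ℝ) + 2) + ((n : ℝ) + 2) ^ 2 := by
    rw [← Complex.normSq_eq_norm_sq]
    simp only [Complex.normSq_apply, ctr, Complex.sub_re, Complex.sub_im, Complex.mul_re,
      Complex.mul_im, Complex.ofReal_re, Complex.ofReal_im, Complex.I_re, Complex.I_im]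
    ring
  have h3 : rad n ^ 2 = ((n : ℝ) + 2) ^ 2 - 2 + (1 / ((n : ℝ) + 2)) ^ 2 := by
    unfold rad
    have : ((n : ℝ) + 2) ≠ 0 := by positivity
    field_simp
    ring
  have h4 : ‖z - ctr n‖ ^ 2 < rad n ^ 2 := by
    rw [h2, h3]
    have : 0 ≤ (1 / ((n : ℝ) + 2)) ^ 2 := by positivity
    nlinarith
  exact lt_of_pow_lt_pow_left₀ 2 (rad_pos n).le h4

theorem im_preconn : IsPreconnected {z : ℂ | 0 < z.im} :=
  (convex_halfSpace_im_gt 0).isPreconnected

theorem im_open : IsOpen {z : ℂ | 0 < z.im} := isOpen_lt continuous_const Complex.continuous_im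

/-- **Holomorphic roots on the upper half plane.** -/
theorem exists_root {F : ℂ → ℂ} (hF : DifferentiableOn ℂ F {z | 0 < z.im})
    (h0 : ∃ z : ℂ, 0 < z.im ∧ F z ≠ 0) {N : ℕ} (hN : 0 < N)
    (ho : ∀ z : ℂ, 0 < z.im → ∃ m : ℕ, analyticOrderAt F z = (N * m : ℕ)) :
    ∃ h : ℂ → ℂ, DifferentiableOn ℂ h {z | 0 < z.im} ∧ ∀ z : ℂ, 0 < z.im → h z ^ N = F z := by
  classical
  have han : AnalyticOnNhd ℂ F {z | 0 < z.im} := hF.analyticOnNhd im_open
  -- a base point
  have hbase : ∃ a ∈ ball (ctr 0) (rad 0), F a ≠ 0 := by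
    by_contra hcon
    push Not at hcon
    obtain ⟨w, hw, hw0⟩ := h0
    have hmem : ctr 0 ∈ ball (ctr 0) (rad 0) := mem_ball_self (rad_pos 0)
    have hev : F =ᶠ[𝓝 (ctr 0)] 0 := by
      filter_upwards [isOpen_ball.mem_nhds hmem] with z hz
      exact hcon z hz
    exact hw0 (han.eqOn_zero_of_preconnected_of_eventuallyEq_zero im_preconn
      (closedBall_sub 0 (ball_subset_closedBall hmem)) hev hw)
  obtain ⟨a, ha, ha0⟩ := hbase
  obtain ⟨w0, hw0⟩ := IsAlgClosed.exists_pow_nat_eq (F a) hN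
  have hw0' : w0 ≠ 0 := by
    rintro rfl
    rw [zero_pow hN.ne'] at hw0
    exact ha0 hw0.symm
  have hroot : ∀ n : ℕ, ∃ h : ℂ → ℂ, DifferentiableOn ℂ h (ball (ctr n) (rad n)) ∧
      (∀ z ∈ ball (ctr n) (rad n), h z ^ N = F z) ∧ h a = w0 := by
    intro n
    have hsub : ball (ctr n) (rad n) ⊆ {z : ℂ | 0 < z.im} :=
      ball_subset_closedBall.trans (closedBall_sub n)
    obtain ⟨h, hh, hhN⟩ := root_fin im_open hN (rad_pos n) hsub _ F hF
      (fin_zero im_open im_preconn hF h0 (closedBall_sub n)) rfl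
      (fun z hz => ho z (hsub hz))
    have hha : h a ≠ 0 := by
      intro hz
      have := hhN a (ball_mono (Nat.zero_le n) ha)
      rw [hz, zero_pow hN.ne'] at this
      exact ha0 this.symm
    refine ⟨fun z => w0 / h a * h z, hh.const_mul _, fun z hz => ?_, ?_⟩
    · have h1 := hhN a (ball_mono (Nat.zero_le n) ha)
      rw [mul_pow, div_pow, hhN z hz, h1, hw0, div_self ha0, one_mul]
    · simp only
      field_simp
  choose h hd hp hv using hroot
  have hagree : ∀ m n : ℕ, m ≤ n → Set.EqOn (h m) (h n) (ball (ctr m) (rad m)) := by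
    intro m n hmn
    refine root_uniq isOpen_ball (convex_ball _ _).isPreconnected hN (hd m)
      ((hd n).mono (ball_mono hmn)) (fun z hz => ?_) (ball_mono (Nat.zero_le m) ha) ?_ ?_
    · rw [hp m z hz, hp n z (ball_mono hmn hz)]
    · rw [hv m]; exact hw0'
    · rw [hv m, hv n]
  have hex : ∀ z : ℂ, 0 < z.im → ∃ n, z ∈ ball (ctr n) (rad n) := fun z hz => exists_ball hz
  let H : ℂ → ℂ := fun z => if hz : 0 < z.im then h (Nat.find (hex z hz)) z else 0
  have hH : ∀ n, Set.EqOn H (h n) (ball (ctr n) (rad n)) := by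
    intro n z hz
    have hz0 : 0 < z.im := closedBall_sub n (ball_subset_closedBall hz)
    simp only [H, hz0, dif_pos]
    exact hagree _ _ (Nat.find_min' _ hz) (Nat.find_spec (hex z hz0))
  refine ⟨H, fun z hz => ?_, fun z hz => ?_⟩
  · obtain ⟨n, hn⟩ := hex z hz
    have h1 := isOpen_ball.mem_nhds hn
    have h2 : DifferentiableAt ℂ (h n) z := (hd n z hn).differentiableAt h1
    refine (h2.congr_of_eventuallyEq ?_).differentiableWithinAt
    filter_upwards [h1] with w hw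
    exact hH n hw
  · obtain ⟨n, hn⟩ := hex z hz
    rw [hH n hn, hp n z hn]

end Vale.Agent.P022.H724.L3
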