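import Mathlib

/-!
# P022-L3, chapter G: Taylor expansions as ring homomorphisms (helper724)
-/

open Set Filter Topology

namespace Vale.Agent.P022.H724.L3

/-- The Taylor series of `g` at `a`. -/
noncomputable def tay (a : ℂ) (g : ℂ → ℂ) : PowerSeries ℂ :=
  PowerSeries.mk fun n => iteratedDeriv n g a / n.factorial

theorem tay_coeff (a : ℂ) (g : ℂ → ℂ) (n : ℕ) :
    (tay a g).coeff n = iteratedDeriv n g a / n.factorial := by simp [tay]

theorem tay_congr {a : ℂ} {f g : ℂ → ℂ} (h : f =ᶠ[𝓝 a] g) : tay a f = tay a g := by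
  ext n
  rw [tay_coeff, tay_coeff, h.iteratedDeriv_eq]

theorem tay_add {a : ℂ} {f g : ℂ → ℂ} (hf : AnalyticAt ℂ f a) (hg : AnalyticAt ℂ g a) :
    tay a (f + g) = tay a f + tay a g := by
  ext n
  rw [map_add, tay_coeff, tay_coeff, tay_coeff, iteratedDeriv_add hf.contDiffAt hg.contDiffAt,
    add_div]

theorem tay_mul {a : ℂ} {f g : ℂ → ℂ} (hf : AnalyticAt ℂ f a) (hg : AnalyticAt ℂ g a) :
    tay a (f * g) = tay a f * tay a g := by
  ext n
  simp only [tay_coeff, iteratedDeriv_mul hf.contDiffAt hg.contDiffAt, PowerSeries.coeff_mul,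
    Finset.Nat.sum_antidiagonal_eq_sum_range_succ_mk, Nat.succ_eq_add_one, Finset.sum_div]
  refine Finset.sum_congr rfl fun i hi => ?_
  rw [Nat.cast_choose _ (by grind)]
  field_simp [Nat.factorial_ne_zero]

theorem tay_const (a c : ℂ) : tay a (fun _ => c) = PowerSeries.C c := by
  ext n
  rw [tay_coeff, PowerSeries.coeff_C]
  rcases n with _ | n
  · simp
  · simp [iteratedDeriv_const]

theorem constantCoeff_tay (a : ℂ) (g : ℂ → ℂ) :
    PowerSeries.constantCoeff (tay a g) = g a := by
  rw [← PowerSeries.coeff_zero_eq_constantCoeff_apply, tay_coeff]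
  simp

theorem tay_id (a b : ℂ) : tay a (fun z => b + (z - a)) = PowerSeries.C b + PowerSeries.X := by
  ext n
  rw [tay_coeff, map_add, PowerSeries.coeff_C, PowerSeries.coeff_X]
  rcases n with _ | _ | n
  · simp
  · simp [iteratedDeriv_one]
  · have h1 : deriv (fun z : ℂ => b + (z - a)) = fun _ => 1 := by
      funext z
      simp
    rw [iteratedDeriv_succ', h1, iteratedDeriv_const]
    simp

theorem tay_pow {a : ℂ} {f : ℂ → ℂ} (hf : AnalyticAt ℂ f a) (n : ℕ) :
    tay a (f ^ n) = tay a f ^ n := by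
  induction n with
  | zero =>
    rw [pow_zero, pow_zero]
    have := tay_const a 1
    rw [map_one] at this
    exact this
  | succ n ih => rw [pow_succ, pow_succ, tay_mul (hf.pow n) hf, ih]

/-- The order of the Taylor series. -/
theorem tay_eq {a : ℂ} {g : ℂ → ℂ} (hg : AnalyticAt ℂ g a) (hn : analyticOrderAt g a ≠ ⊤) :
    ∃ u : PowerSeries ℂ, PowerSeries.constantCoeff u ≠ 0 ∧
      tay a g = PowerSeries.X ^ analyticOrderNatAt g a * u := by
  have h1 : analyticOrderAt g a = analyticOrderNatAt g a :=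
    (Nat.cast_analyticOrderNatAt hn).symm
  obtain ⟨h, hh, h0, he⟩ := (hg.analyticOrderAt_eq_natCast).1 h1
  refine ⟨tay a h, by rwa [constantCoeff_tay], ?_⟩
  have e1 : g =ᶠ[𝓝 a] ((fun z => 0 + (z - a)) ^ analyticOrderNatAt g a) * h := by
    filter_upwards [he] with z hz
    simp [hz]
  have h2 : AnalyticAt ℂ (fun z : ℂ => 0 + (z - a)) a := by fun_prop
  rw [tay_congr e1, tay_mul (h2.pow _) hh, tay_pow h2, tay_id]
  simp

theorem order_of_constantCoeff {u : PowerSeries ℂ} (hu : PowerSeries.constantCoeff u ≠ 0) :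
    (HahnSeries.ofPowerSeries ℤ ℂ u).order = 0 := by
  have hu0 : HahnSeries.ofPowerSeries ℤ ℂ u ≠ 0 := fun h => hu (by
    rw [HahnSeries.ofPowerSeries_injective (h.trans (map_zero _).symm), map_zero])
  apply le_antisymm
  · apply HahnSeries.order_le_of_coeff_ne_zero
    rw [PowerSeries.coeff_coe]
    simpa using hu
  · by_contra h
    push Not at h
    have h1 : (HahnSeries.ofPowerSeries ℤ ℂ u).coeff (HahnSeries.ofPowerSeries ℤ ℂ u).order ≠ 0 :=
      fun h => hu0 (HahnSeries.coeff_order_eq_zero.1 h)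
    rw [PowerSeries.coeff_coe, if_pos h] at h1
    exact h1 rfl

/-- **The expansion of the meromorphic functions at `τ`, in the coordinate `p - p(τ)`.** `R` is a
ring of functions which are analytic at `τ`, `K` is its field of fractions. -/
theorem exists_theta {R K : Type*} [CommRing R] [IsDomain R] [Field K] [Algebra R K]
    [IsFractionRing R K] [Algebra ℂ R] [Algebra ℂ K] [IsScalarTower ℂ R K]
    (ev : R →ₐ[ℂ] (ℂ → ℂ)) (τ : ℂ) (han : ∀ x, AnalyticAt ℂ (ev x) τ)
    (hne : ∀ x, x ≠ 0 → analyticOrderAt (ev x) τ ≠ ⊤) (p : R) (hp : deriv (ev p) τ ≠ 0) :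
    ∃ θ : K →ₐ[ℂ] LaurentSeries ℂ,
      θ (algebraMap R K p) = HahnSeries.C (ev p τ) + HahnSeries.single 1 1 ∧
      (∀ x : R, ∃ s : PowerSeries ℂ, θ (algebraMap R K x) = HahnSeries.ofPowerSeries ℤ ℂ s ∧
        PowerSeries.constantCoeff s = ev x τ) ∧
      ∀ x : R, x ≠ 0 → (θ (algebraMap R K x)).order = (analyticOrderNatAt (ev x) τ : ℤ) := by
  -- the local inverse
  have hpa := han p
  let q : ℂ → ℂ := hpa.hasStrictDerivAt.localInverse (ev p) (deriv (ev p) τ) τ hp
  have hq1 : ∀ᶠ w in 𝓝 (ev p τ), ev p (q w) = w :=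
    (hpa.hasStrictDerivAt.hasStrictFDerivAt_equiv hp).eventually_right_inverse
  have hqτ : q (ev p τ) = τ :=
    (hpa.hasStrictDerivAt.hasStrictFDerivAt_equiv hp).localInverse_apply_image
  have hqa : AnalyticAt ℂ q (ev p τ) := hpa.analyticAt_localInverse hp
  have hqd : deriv q (ev p τ) ≠ 0 := by
    have h1 : HasStrictDerivAt q (deriv (ev p) τ)⁻¹ (ev p τ) :=
      hpa.hasStrictDerivAt.to_localInverse hp
    rw [h1.hasDerivAt.deriv]
    exact inv_ne_zero hp
  set b := ev p τ with hb
  have hc : ∀ x, AnalyticAt ℂ (ev x ∘ q) b := fun x => by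
    refine AnalyticAt.comp ?_ hqa
    rw [hqτ]; exact han x
  -- the ring homomorphism
  let T : R →ₐ[ℂ] PowerSeries ℂ := AlgHom.ofLinearMap
    { toFun := fun x => tay b (ev x ∘ q)
      map_add' := fun x y => by
        rw [← tay_add (hc x) (hc y)]
        congr 1
        funext z
        simp
      map_smul' := fun c x => by
        have h1 : ev (c • x) ∘ q = (fun _ => c) * (ev x ∘ q) := by
          funext z
          simp
        rw [h1, tay_mul analyticAt_const (hc x), tay_const, RingHom.id_apply,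
          PowerSeries.smul_eq_C_mul] }
    (by
      show tay b (ev 1 ∘ q) = 1
      have h1 : ev (1 : R) ∘ q = fun _ => 1 := by
        funext z
        simp
      rw [h1, tay_const, map_one])
    (fun x y => by
      show tay b (ev (x * y) ∘ q) = tay b (ev x ∘ q) * tay b (ev y ∘ q)
      rw [← tay_mul (hc x) (hc y)]
      congr 1
      funext z
      simp)
  have hT : ∀ x, T x = tay b (ev x ∘ q) := fun _ => rfl
  have hord : ∀ x, analyticOrderAt (ev x ∘ q) b = analyticOrderAt (ev x) τ := by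
    intro x
    have h1 : AnalyticAt ℂ (ev x) (q b) := by rw [hqτ]; exact han x
    have h2 : analyticOrderAt (fun z => q z - q b) b = 1 :=
      hqa.analyticOrderAt_sub_eq_one_of_deriv_ne_zero hqd
    rw [h1.analyticOrderAt_comp hqa, h2, mul_one, hqτ]
  have hT1 : ∀ x, x ≠ 0 → ∃ u : PowerSeries ℂ, PowerSeries.constantCoeff u ≠ 0 ∧
      T x = PowerSeries.X ^ analyticOrderNatAt (ev x) τ * u := by
    intro x hx
    obtain ⟨u, hu, he⟩ := tay_eq (hc x) (by rw [hord x]; exact hne x hx)
    refine ⟨u, hu, ?_⟩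
    rw [hT, he]
    congr 2
    unfold analyticOrderNatAt
    rw [hord x]
  have hT0 : ∀ x, x ≠ 0 → T x ≠ 0 := by
    intro x hx h0
    obtain ⟨u, hu, he⟩ := hT1 x hx
    rw [h0] at he
    rcases mul_eq_zero.1 he.symm with h | h
    · exact (pow_ne_zero _ PowerSeries.X_ne_zero) h
    · exact hu (by rw [h, map_zero])
  let j : R →ₐ[ℂ] LaurentSeries ℂ :=
    { (HahnSeries.ofPowerSeries ℤ ℂ).comp (T : R →+* PowerSeries ℂ) with
      commutes' := fun c => by
        show HahnSeries.ofPowerSeries ℤ ℂ (T (algebraMap ℂ R c)) = algebraMap ℂ (LaurentSeries ℂ) c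
        rw [AlgHom.commutes]
        rfl }
  have hj : ∀ x, j x = HahnSeries.ofPowerSeries ℤ ℂ (T x) := fun _ => rfl
  have hinj : Function.Injective j := by
    rw [injective_iff_map_eq_zero]
    intro x hx
    by_contra h
    rw [hj] at hx
    exact hT0 x h (HahnSeries.ofPowerSeries_injective (by rw [hx, map_zero]))
  refine ⟨IsFractionRing.liftAlgHom hinj, ?_, fun x => ?_, fun x hx => ?_⟩
  · rw [IsFractionRing.liftAlgHom_apply]
    have h1 := IsFractionRing.lift_algebraMap (K := K) (g := (j : R →+* LaurentSeries ℂ)) hinj p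
    refine h1.trans ?_
    show HahnSeries.ofPowerSeries ℤ ℂ (T p) = _
    have h2 : T p = PowerSeries.C b + PowerSeries.X := by
      rw [hT, ← tay_id b b]
      apply tay_congr
      filter_upwards [hq1] with w hw
      rw [Function.comp_apply, hw]
      ring
    rw [h2, map_add, HahnSeries.ofPowerSeries_C, HahnSeries.ofPowerSeries_X]
  · refine ⟨T x, ?_, ?_⟩
    · rw [IsFractionRing.liftAlgHom_apply]
      exact IsFractionRing.lift_algebraMap (K := K) (g := (j : R →+* LaurentSeries ℂ)) hinj x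
    · rw [hT, constantCoeff_tay, Function.comp_apply, hqτ]
  · obtain ⟨u, hu, he⟩ := hT1 x hx
    have h1 : IsFractionRing.liftAlgHom hinj (algebraMap R K x) =
        HahnSeries.ofPowerSeries ℤ ℂ (T x) := by
      rw [IsFractionRing.liftAlgHom_apply]
      exact IsFractionRing.lift_algebraMap (K := K) (g := (j : R →+* LaurentSeries ℂ)) hinj x
    have hu0 : HahnSeries.ofPowerSeries ℤ ℂ u ≠ 0 := fun h => hu (by
      rw [HahnSeries.ofPowerSeries_injective (h.trans (map_zero _).symm), map_zero])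
    rw [h1, he, map_mul, HahnSeries.ofPowerSeries_X_pow,
      HahnSeries.order_mul (HahnSeries.single_ne_zero one_ne_zero) hu0,
      HahnSeries.order_single one_ne_zero, order_of_constantCoeff hu, add_zero]

end Vale.Agent.P022.H724.L3
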