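import Mathlib

/-!
# P022-L3, chapter G: two points over the same value differ by a Galois element (helper724)
-/

namespace Vale.Agent.P022.H724.L3

theorem exists_gal {F K Ω : Type*} [Field F] [Field K] [Field Ω] [Algebra F K] [Algebra F Ω]
    [Normal F K] (θ θ' : K →ₐ[F] Ω) : ∃ g : K ≃ₐ[F] K, ∀ x, θ' x = θ (g x) := by
  let _ : Algebra K Ω := θ.toRingHom.toAlgebra
  have _ : IsScalarTower F K Ω := IsScalarTower.of_algebraMap_eq fun x => (θ.commutes x).symm
  refine ⟨AlgEquiv.ofBijective (θ'.restrictNormal K) ?_, fun x => ?_⟩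
  · exact Algebra.IsAlgebraic.algHom_bijective _
  · have := AlgHom.restrictNormal_commutes θ' K x
    exact this.symm

open scoped IntermediateField in
/-- Two expansions with the same value of `p` differ by an element of the Galois group. -/
theorem exists_gal' {k K Ω : Type*} [Field k] [Field K] [Field Ω] [Algebra k K] [Algebra k Ω]
    (p : K) [Normal k⟮p⟯ K] (θ θ' : K →ₐ[k] Ω) (hp : θ p = θ' p) :
    ∃ g : K ≃ₐ[k⟮p⟯] K, ∀ x, θ' x = θ (g x) := by
  let _ : Algebra k⟮p⟯ Ω := (θ.comp k⟮p⟯.val).toRingHom.toAlgebra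
  have h1 : θ.comp k⟮p⟯.val = θ'.comp k⟮p⟯.val := by
    apply IntermediateField.algHom_ext_of_eq_adjoin _ rfl
    intro x hx
    obtain rfl : x = p := hx
    exact hp
  let t : K →ₐ[k⟮p⟯] Ω := { θ.toRingHom with commutes' := fun x => rfl }
  let t' : K →ₐ[k⟮p⟯] Ω := { θ'.toRingHom with
    commutes' := fun x => (DFunLike.congr_fun h1 x).symm }
  obtain ⟨g, hg⟩ := exists_gal t t'
  exact ⟨g, hg⟩

end Vale.Agent.P022.H724.L3
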