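import Vale.Agent.P022.H724.L3.FamB

/-!
# P022-L3, [WD-FAM]: the rings `Aw w n`, the Hecke map `al`, the trace functions

`w` odd, weight `w + 2`; `v n : VD (n + 2) n`.
-/

set_option autoImplicit false

open scoped MatrixGroups
open NumberField

noncomputable section

namespace Vale.Agent.P022.H724.L3

open Vale.Agent.P022 Vale.Agent.P022.L3 Vale.Agent.P022.H853
open Vale.Agent.P022.H583

/-- the ring `∏_(e ≤ w) End (Wf (n + 2) n w e)` -/
abbrev Aw (w n : ℕ) : Type := ∀ e : Fin (w + 1), AddMonoid.End (Wf (n + 2) n w e)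

variable (w : ℕ) (v : ∀ n, VD (n + 2) n)

/-- elements of `PA 3` are good primes -/
theorem gd (ℓ : PA 3) : Good 3 ℓ.1 := ℓ.2

/-- the generators -/
def gen (n : ℕ) : Gen 3 → Aw w n
  | Sum.inl ℓ => fun e => (((ℓ.1 : ℤ) ^ (e : ℕ) : ℤ) : AddMonoid.End (Wf (n + 2) n w e)) *
      Tw (v n) w e ℓ.1 (gd ℓ)
  | Sum.inr ℓ => ((eps ℓ.1 * (ℓ.1 : ℤ) ^ (w + 1) : ℤ) : Aw w n)

/-- **the action of the Hecke polynomials**: `T_ℓ ↦ ℓ^e T_ℓ`, `ℓ S_ℓ ↦ eps(ℓ) ℓ^(w+1)` -/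
def al (n : ℕ) : FreeAlgebra ℤ (Gen 3) →ₐ[ℤ] Aw w n := FreeAlgebra.lift ℤ (gen w v n)

theorem al_inl (n : ℕ) (ℓ : PA 3) (e : Fin (w + 1)) (φ : Wf (n + 2) n w e) :
    ((al w v n (FreeAlgebra.ι ℤ (Sum.inl ℓ)) e φ : Wf (n + 2) n w e) : V 3 (n + 2) n) =
      ((ℓ.1 : ℤ) ^ (e : ℕ)) • (v n).T ℓ.1 φ := by
  rw [al, FreeAlgebra.lift_ι_apply]
  show (((((ℓ.1 : ℤ) ^ (e : ℕ) : ℤ) : AddMonoid.End (Wf (n + 2) n w e))
    (Tw (v n) w e ℓ.1 (gd ℓ) φ) : Wf (n + 2) n w e) : V 3 (n + 2) n) = _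
  rw [AddMonoid.End.intCast_apply, AddSubgroup.coe_zsmul, Tw_apply]

theorem al_inr (n : ℕ) (ℓ : PA 3) : al w v n (FreeAlgebra.ι ℤ (Sum.inr ℓ)) =
    ((eps ℓ.1 * (ℓ.1 : ℤ) ^ (w + 1) : ℤ) : Aw w n) := by
  rw [al, FreeAlgebra.lift_ι_apply]
  rfl

theorem al_inr_apply (n : ℕ) (ℓ : PA 3) (e : Fin (w + 1)) (φ : Wf (n + 2) n w e) :
    ((al w v n (FreeAlgebra.ι ℤ (Sum.inr ℓ)) e φ : Wf (n + 2) n w e) : V 3 (n + 2) n) =
      (eps ℓ.1 * (ℓ.1 : ℤ) ^ (w + 1)) • (φ : V 3 (n + 2) n) := by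
  rw [al_inr]
  show (((eps ℓ.1 * (ℓ.1 : ℤ) ^ (w + 1) : ℤ) : AddMonoid.End (Wf (n + 2) n w e)) φ).1 = _
  rw [AddMonoid.End.intCast_apply, AddSubgroup.coe_zsmul]

/-- the Galois action `(κ^e ρ)_e` -/
def rA (n : ℕ) : GQ →* Aw w n := MonoidHom.pi fun e => rT (v n) w e (n + 2) (by omega)

/-- the determinant -/
def dA (n : ℕ) : GQ →* Aw w n :=
  MonoidHom.pi fun e => dW (n + 2) w e (n + 2) (by omega) (by omega)

theorem dA_apply (n : ℕ) (g : GQ) : dA w n g = ((dn (n + 2) w g : ℤ) : Aw w n) := rfl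

/-- the trace function -/
def tA (n : ℕ) (g : GQ) : Aw w n := tt (rA w v n) (dA w n) g

/-! ### frames -/

theorem rw'_Tw {M n : ℕ} (v : VD M n) (w e : ℕ) {ℓ : ℕ} (hℓ : Good 3 ℓ) (g : GQ) :
    Tw v w e ℓ hℓ * rw' v w e g = rw' v w e g * Tw v w e ℓ hℓ := by
  ext φ : 1
  exact Subtype.ext (DFunLike.congr_fun (v.ρT ℓ hℓ g) φ.1)

theorem Tw_Tw {M n : ℕ} (v : VD M n) (w e : ℕ) {ℓ ℓ' : ℕ} (hℓ : Good 3 ℓ) (hℓ' : Good 3 ℓ') :
    Tw v w e ℓ hℓ * Tw v w e ℓ' hℓ' = Tw v w e ℓ' hℓ' * Tw v w e ℓ hℓ := by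
  ext φ : 1
  exact Subtype.ext (DFunLike.congr_fun (v.TT ℓ ℓ' hℓ hℓ') φ.1)

theorem int_mul_comm {A : Type*} [Ring A] (a b : ℤ) {x y : A} (h : x * y = y * x) :
    ((a : A) * x) * ((b : A) * y) = ((b : A) * y) * ((a : A) * x) := by
  have h1 : x * (b : A) = (b : A) * x := (Int.cast_commute b x).symm.eq
  have h2 : y * (a : A) = (a : A) * y := (Int.cast_commute a y).symm.eq
  have h3 : (a : A) * (b : A) = (b : A) * (a : A) := (Int.cast_commute a (b : A)).eq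
  calc ((a : A) * x) * ((b : A) * y) = (a : A) * (x * (b : A)) * y := by simp only [mul_assoc]
    _ = (a : A) * (b : A) * (x * y) := by rw [h1]; simp only [mul_assoc]
    _ = (b : A) * (a : A) * (y * x) := by rw [h3, h]
    _ = (b : A) * (y * (a : A)) * x := by rw [h2]; simp only [mul_assoc]
    _ = _ := by simp only [mul_assoc]

theorem gen_rA (n : ℕ) (s : Gen 3) (g : GQ) : gen w v n s * rA w v n g = rA w v n g * gen w v n s := by
  rcases s with ℓ | ℓ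
  · funext e
    exact int_mul_comm _ _ (rw'_Tw (v n) w e (gd ℓ) g)
  · exact intCast_comm _ _

theorem gen_gen (n : ℕ) (s s' : Gen 3) : gen w v n s * gen w v n s' = gen w v n s' * gen w v n s := by
  rcases s with ℓ | ℓ
  · rcases s' with ℓ' | ℓ'
    · funext e
      exact int_mul_comm _ _ (Tw_Tw (v n) w e (gd ℓ) (gd ℓ'))
    · exact (intCast_comm _ _).symm
  · exact intCast_comm _ _

theorem tA_frob (n : ℕ) (ℓ : PA 3) {φ : GQ} (hφ : IsFrob ℓ.1 φ) :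
    tA w v n φ = gen w v n (Sum.inl ℓ) := by
  funext e
  exact tt_frobW (v n) w e (by omega) (by omega) (gd ℓ) hφ

theorem dA_frob (n : ℕ) (ℓ : PA 3) {φ : GQ} (hφ : IsFrob ℓ.1 φ) :
    dA w n φ = gen w v n (Sum.inr ℓ) := by
  funext e
  exact dW_congr w e (by omega) (by omega) (kn_frob (gd ℓ) hφ)

/-- the good subgroup on which everything is trivial -/
def Ug (n : ℕ) : Subgroup GQ := (v n).ρ.ker ⊓ (cyc (3 * 2 ^ (n + 2))).ker

theorem good_Ug (n : ℕ) : H132.Z.Good (Ug v n) := (v n).good_ker.inf (good_cyc _)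

theorem kn_of_mem {K : ℕ} {u : GQ} (hu : u ∈ (cyc (3 * 2 ^ K)).ker) :
    kn K u ≡ 1 [MOD 3 * 2 ^ K] :=
  kn_congr (by rw [MonoidHom.mem_ker.1 hu, Nat.cast_one, Units.val_one])

theorem rA_one (n : ℕ) {u : GQ} (hu : u ∈ Ug v n) : rA w v n u = 1 := by
  funext e
  show kW (n + 2) w e (n + 2) _ u * rw' (v n) w e u = 1
  have h1 : rw' (v n) w e u = 1 := by
    ext φ : 1
    apply Subtype.ext
    rw [rw'_apply, MonoidHom.mem_ker.1 hu.1]
    rfl
  have h2 : kW (n + 2) w e (n + 2) (show n ≤ n + 2 by omega) u = 1 := by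
    have hk2 : kn (n + 2) u ≡ 1 [MOD 2 ^ n] :=
      (kn_of_mem hu.2).of_dvd ((pow_dvd_pow 2 (by omega)).trans (Dvd.intro_left _ rfl))
    show (((kn (n + 2) u : ℤ) ^ (e : ℕ) : ℤ) : AddMonoid.End (Wf (n + 2) n w e)) = 1
    rw [cast_congrW w e (b := ((1 : ℕ) : ℤ) ^ (e : ℕ))
      ((Nat.modEq_iff_dvd.1 hk2.symm).trans (sub_dvd_pow_sub_pow _ _ _)), Nat.cast_one, one_pow,
      Int.cast_one]
  rw [h1, h2, mul_one]

theorem dA_one (n : ℕ) {u : GQ} (hu : u ∈ Ug v n) : dA w n u = 1 := by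
  funext e
  have h := dW_congr (M := n + 2) (n := n) w e (K := n + 2) (by omega) (by omega) (kn_of_mem hu.2)
  rw [Nat.cast_one, eps_one, one_pow, mul_one, Int.cast_one] at h
  exact h

/-! ### the joint ring over `n ≤ m` -/

/-- joint generators -/
def genB (m : ℕ) : Gen 3 → ∀ n : Fin (m + 1), Aw w n := fun s n => gen w v n s

theorem lift_genB (m : ℕ) (Q : FreeAlgebra ℤ (Gen 3)) (n : Fin (m + 1)) :
    FreeAlgebra.lift ℤ (genB w v m) Q n = al w v n Q := by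
  have h : ((Pi.evalAlgHom ℤ (fun n : Fin (m + 1) => Aw w n) n).comp
      (FreeAlgebra.lift ℤ (genB w v m))) = al w v n := by
    apply FreeAlgebra.hom_ext
    funext s
    show (FreeAlgebra.lift ℤ (genB w v m) (FreeAlgebra.ι ℤ s)) n =
      al w v n (FreeAlgebra.ι ℤ s)
    rw [FreeAlgebra.lift_ι_apply, al, FreeAlgebra.lift_ι_apply]
    rfl
  exact DFunLike.congr_fun h Q

/-- **one polynomial for all `n ≤ m`** -/
theorem exists_poly (m : ℕ) (g : GQ) :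
    ∃ Q : FreeAlgebra ℤ (Gen 3), ∀ n ≤ m, al w v n Q = tA w v n g := by
  obtain ⟨U, hU, hle⟩ := good_iInf (Ug v) (good_Ug v) m
  let rB : GQ →* (∀ n : Fin (m + 1), Aw w n) := MonoidHom.pi fun n => rA w v n
  let dB : GQ →* (∀ n : Fin (m + 1), Aw w n) := MonoidHom.pi fun n => dA w n
  have hF : Fr rB dB
      (FreeAlgebra.lift ℤ (genB w v m) : FreeAlgebra ℤ (Gen 3) →ₐ[ℤ] _).toRingHom.range := by
    refine fr_range rB dB (genB w v m) (fun s g => ?_) (fun s s' => ?_) (fun g => ?_)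
    · funext n
      exact gen_rA w v n s g
    · funext n
      exact gen_gen w v n s s'
    · refine ⟨dn (m + 2) w g, ?_⟩
      funext n
      show dA w n g = ((dn (m + 2) w g : ℤ) : Aw w n)
      funext e
      show ((dn (n + 2) w g : ℤ) : AddMonoid.End (Wf (n + 2) n w e)) =
        ((dn (m + 2) w g : ℤ) : AddMonoid.End (Wf (n + 2) n w e))
      refine cast_congrW w e ?_
      have hnm : (n : ℕ) + 2 ≤ m + 2 := by
        have := n.2
        omega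
      have h1 : kn (m + 2) g ≡ kn (n + 2) g [MOD 3 * 2 ^ ((n : ℕ) + 2)] := kn_mod hnm g
      have h2 := dn_congr (K := (n : ℕ) + 2) (c := kn (m + 2) g) w h1.symm
      exact (show ((2 ^ (n : ℕ) : ℕ) : ℤ) ∣ ((2 ^ ((n : ℕ) + 2) : ℕ) : ℤ) by
        exact_mod_cast pow_dvd_pow 2 (by omega)).trans h2
  have h := cen_good rB dB _ hF hU
    (fun u hu => by
      funext n
      exact rA_one w v n (hle n (by have := n.2; omega) hu))
    (fun u hu => by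
      funext n
      exact dA_one w v n (hle n (by have := n.2; omega) hu))
    (fun ℓ hℓ h6 φ hφ => by
      refine ⟨FreeAlgebra.ι ℤ (Sum.inl ⟨ℓ, hℓ, h6⟩), ?_⟩
      funext n
      show FreeAlgebra.lift ℤ (genB w v m) _ n = _
      rw [lift_genB, al, FreeAlgebra.lift_ι_apply]
      exact (tA_frob w v n ⟨ℓ, hℓ, h6⟩ hφ).symm) g
  obtain ⟨Q, hQ⟩ := h
  refine ⟨Q, fun n hn => ?_⟩
  have h2 := congrFun hQ ⟨n, by omega⟩
  have h3 := lift_genB w v m Q ⟨n, by omega⟩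
  exact h3.symm.trans h2

/-- the integer constants: `d` -/
theorem exists_const (m : ℕ) (g : GQ) :
    ∃ R : FreeAlgebra ℤ (Gen 3), ∀ n ≤ m, al w v n R = dA w n g := by
  refine ⟨((dn (m + 2) w g : ℤ) : FreeAlgebra ℤ (Gen 3)), fun n hn => ?_⟩
  rw [map_intCast]
  funext e
  show ((dn (m + 2) w g : ℤ) : AddMonoid.End (Wf (n + 2) n w e)) =
    ((dn (n + 2) w g : ℤ) : AddMonoid.End (Wf (n + 2) n w e))
  refine (cast_congrW w e ?_).symm
  have h1 : kn (m + 2) g ≡ kn (n + 2) g [MOD 3 * 2 ^ (n + 2)] := kn_mod (by omega) g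
  have h2 := dn_congr (K := n + 2) (c := kn (m + 2) g) w h1.symm
  exact (show ((2 ^ n : ℕ) : ℤ) ∣ ((2 ^ (n + 2) : ℕ) : ℤ) by
    exact_mod_cast pow_dvd_pow 2 (by omega)).trans h2

/-- the frame for one `n` -/
theorem fr_one (n : ℕ) : Fr (rA w v n) (dA w n) (al w v n).toRingHom.range :=
  fr_range _ _ (gen w v n) (gen_rA w v n) (gen_gen w v n) (fun g => ⟨dn (n + 2) w g, rfl⟩)

theorem tA_mem (n : ℕ) (g : GQ) : tt (rA w v n) (dA w n) g ∈ (al w v n).toRingHom.range := by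
  obtain ⟨Q, hQ⟩ := exists_poly w v n g
  exact ⟨Q, hQ n le_rfl⟩

end Vale.Agent.P022.H724.L3
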