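import Vale.Agent.P022.H132.L3.Defs
import Vale.Agent.P022.H583.Cen
import Vale.Agent.P022.H853.L3.Dens
import Vale.Agent.P022.H853.L3.VD
import Vale.Agent.P022.H724.L3.FamDef

/-!
# P022-L3, [WD-FAM], part A: good subgroups, the joint form of [CEN]
-/

set_option autoImplicit false

open scoped MatrixGroups
open NumberField

noncomputable section

namespace Vale.Agent.P022.H724.L3

open Vale.Agent.P022 Vale.Agent.P022.L3 Vale.Agent.P022.H853 Vale.Agent.P022.H132.Z
open Vale.Agent.P022.H583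

/-- finite intersections of good subgroups -/
theorem good_iInf (U : ℕ → Subgroup GQ) (hU : ∀ n, Good (U n)) (m : ℕ) :
    ∃ V : Subgroup GQ, Good V ∧ ∀ n ≤ m, V ≤ U n := by
  induction m with
  | zero => exact ⟨U 0, hU 0, fun n hn => by rw [Nat.le_zero.1 hn]⟩
  | succ m ih =>
    obtain ⟨V, hV, h⟩ := ih
    refine ⟨V ⊓ U (m + 1), hV.inf (hU _), fun n hn => ?_⟩
    rcases Nat.lt_or_ge m n with h1 | h1
    · have : n = m + 1 := by omega
      rw [this]
      exact inf_le_right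
    · exact inf_le_left.trans (h n h1)

/-- the exponent of `G_ℚ / U` -/
theorem good_exp {U : Subgroup GQ} (hU : Good U) : ∃ n : ℕ, ∀ g : GQ, g ^ 2 ^ n ∈ U := by
  have := hU.nor
  have : Finite (GQ ⧸ U) := Subgroup.quotient_finite_of_isOpen U hU.op
  have hp : IsPGroup 2 (GQ ⧸ U) := by
    intro x
    obtain ⟨g, rfl⟩ := QuotientGroup.mk_surjective x
    obtain ⟨k, hk⟩ := hU.two g
    exact ⟨k, by rw [← QuotientGroup.mk_pow]; exact (QuotientGroup.eq_one_iff _).2 hk⟩
  obtain ⟨n, hn⟩ := IsPGroup.iff_card.1 hp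
  refine ⟨n, fun g => ?_⟩
  rw [← QuotientGroup.eq_one_iff (N := U), QuotientGroup.mk_pow, ← hn]
  exact pow_card_eq_one'

/-- **[CEN], [F-DENS] together**: `ρ`, `d` trivial on a good subgroup, `t(φ) ∈ S` for the Frobenius
elements at `ℓ ∤ 6` ⊢ `t(g) ∈ S` for all `g` -/
theorem cen_good {A : Type*} [Ring A] (ρ d : GQ →* A) (S : Subring A) (hF : Fr ρ d S)
    {U : Subgroup GQ} (hU : Good U) (hρ : ∀ g ∈ U, ρ g = 1) (hd : ∀ g ∈ U, d g = 1)
    (hfr : ∀ ℓ : ℕ, ℓ.Prime → ¬ ℓ ∣ 6 → ∀ φ : GQ, IsFrob ℓ φ → tt ρ d φ ∈ S) (g : GQ) :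
    tt ρ d g ∈ S := by
  obtain ⟨n, hn⟩ := good_exp hU
  have := hU.nor
  refine cen hF n (fun g => hρ _ (hn g)) (fun g => hd _ (hn g)) (fun g => ?_) g
  obtain ⟨ℓ, hℓ, hS, P, hP, hℓP, φ, hφ, m, hm, he⟩ := dens (QuotientGroup.mk' U)
    (by rw [QuotientGroup.ker_mk']; exact hU.op)
    (fun g => by
      obtain ⟨k, hk⟩ := hU.two g
      exact ⟨k, by rw [← map_pow]; exact (QuotientGroup.eq_one_iff _).2 hk⟩) g {2, 3}
  have h6 : ¬ ℓ ∣ 6 := by
    intro h
    rw [show (6 : ℕ) = 2 * 3 from rfl] at h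
    rcases (Nat.Prime.dvd_mul hℓ).1 h with h | h
    · exact hS (by rw [(Nat.prime_dvd_prime_iff_eq hℓ Nat.prime_two).1 h]; simp)
    · exact hS (by rw [(Nat.prime_dvd_prime_iff_eq hℓ Nat.prime_three).1 h]; simp)
  have hu : (g ^ m)⁻¹ * φ ∈ U := by
    rw [← QuotientGroup.eq_one_iff (N := U)]
    have : (QuotientGroup.mk' U) ((g ^ m)⁻¹ * φ) = 1 := by
      rw [map_mul, map_inv, he, map_pow, inv_mul_cancel]
    exact this
  have hφe : φ = g ^ m * ((g ^ m)⁻¹ * φ) := by rw [mul_inv_cancel_left]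
  refine ⟨m, φ, hm, hfr ℓ hℓ h6 φ ⟨P, hP, hℓP, hφ⟩, ?_, ?_⟩
  · rw [hφe, map_mul, hρ _ hu, mul_one]
  · rw [hφe, map_mul, hd _ hu, mul_one]

/-- values of a homomorphism from the free algebra lie in every subring containing the generators -/
theorem lift_mem {X A : Type*} [Ring A] (f : X → A) (R : Subring A) (h : ∀ s, f s ∈ R)
    (Q : FreeAlgebra ℤ X) : FreeAlgebra.lift ℤ f Q ∈ R := by
  induction Q using FreeAlgebra.induction with
  | grade0 r =>
    rw [AlgHom.commutes, eq_intCast]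
    exact intCast_mem R r
  | grade1 x => rw [FreeAlgebra.lift_ι_apply]; exact h x
  | mul a b ha hb => rw [map_mul]; exact R.mul_mem ha hb
  | add a b ha hb => rw [map_add]; exact R.add_mem ha hb

/-- the frame of helper583 for the range of a map from the free algebra -/
theorem fr_range {X A : Type*} [Ring A] (ρ d : GQ →* A) (f : X → A)
    (h1 : ∀ s g, f s * ρ g = ρ g * f s) (h2 : ∀ s s', f s * f s' = f s' * f s)
    (h3 : ∀ g, ∃ k : ℤ, d g = (k : A)) :
    Fr ρ d (FreeAlgebra.lift ℤ f : FreeAlgebra ℤ X →ₐ[ℤ] A).toRingHom.range where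
  cm := by
    rintro _ ⟨Q, rfl⟩ g
    have h : FreeAlgebra.lift ℤ f Q ∈ Subring.centralizer {ρ g} :=
      lift_mem f _ (fun s => by
        rw [Subring.mem_centralizer_iff]
        rintro _ rfl
        exact (h1 s g).symm) Q
    exact ((Subring.mem_centralizer_iff.1 h) _ rfl).symm
  ss := by
    have hs : ∀ s, ∀ Q, f s * FreeAlgebra.lift ℤ f Q = FreeAlgebra.lift ℤ f Q * f s := by
      intro s Q
      have h : FreeAlgebra.lift ℤ f Q ∈ Subring.centralizer {f s} :=
        lift_mem f _ (fun s' => by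
          rw [Subring.mem_centralizer_iff]
          rintro _ rfl
          exact h2 s s') Q
      exact (Subring.mem_centralizer_iff.1 h) _ rfl
    rintro _ ⟨Q, rfl⟩ _ ⟨Q', rfl⟩
    have h : FreeAlgebra.lift ℤ f Q ∈ Subring.centralizer {FreeAlgebra.lift ℤ f Q'} :=
      lift_mem f _ (fun s => by
        rw [Subring.mem_centralizer_iff]
        rintro _ rfl
        exact (hs s Q').symm) Q
    exact ((Subring.mem_centralizer_iff.1 h) _ rfl).symm
  dS g := by
    obtain ⟨k, hk⟩ := h3 g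
    rw [hk]
    exact intCast_mem _ k

end Vale.Agent.P022.H724.L3
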