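import Vale.Agent.P022.H724.L3.FamA

/-!
# P022-L3, [WD-FAM], part B: one module `Wf M n w e`
-/

set_option autoImplicit false

open scoped MatrixGroups
open NumberField

noncomputable section

namespace Vale.Agent.P022.H724.L3

open Vale.Agent.P022 Vale.Agent.P022.L3 Vale.Agent.P022.H853
open Vale.Agent.P022.H583

theorem mul_app {V : Type*} [AddCommGroup V] (f g : AddMonoid.End V) (x : V) :
    (f * g) x = f (g x) := rfl

theorem add_app {V : Type*} [AddCommGroup V] (f g : AddMonoid.End V) (x : V) :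
    (f + g) x = f x + g x := rfl

/-- the endomorphisms of `V` which preserve `W` -/
def stab {V : Type*} [AddCommGroup V] (W : AddSubgroup V) : Subring (AddMonoid.End V) where
  carrier := {f | ∀ x ∈ W, f x ∈ W}
  mul_mem' {_ _} hf hg x hx := hf _ (hg x hx)
  one_mem' _ hx := hx
  add_mem' {_ _} hf hg x hx := W.add_mem (hf x hx) (hg x hx)
  zero_mem' _ _ := W.zero_mem
  neg_mem' {_} hf x hx := W.neg_mem (hf x hx)

/-- restriction -/
def rs {V : Type*} [AddCommGroup V] (W : AddSubgroup V) : stab W →+* AddMonoid.End W where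
  toFun f := AddMonoidHom.mk' (fun x => ⟨(f : AddMonoid.End V) x.1, f.2 x.1 x.2⟩)
    (fun x y => Subtype.ext (map_add (f : AddMonoid.End V) x.1 y.1))
  map_one' := rfl
  map_mul' _ _ := rfl
  map_zero' := rfl
  map_add' _ _ := rfl

theorem rs_apply {V : Type*} [AddCommGroup V] (W : AddSubgroup V) (f : stab W) (x : W) :
    ((rs W f x : W) : V) = (f : AddMonoid.End V) (x : V) := rfl

variable {M n : ℕ} (v : VD M n) (w e : ℕ)

theorem isCoprime_intCast {b : ℤ} (hb : IsCoprime b 6) : ¬ (3 : ℤ) ∣ b := by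
  intro h
  have h1 : IsCoprime (3 : ℤ) 6 := hb.of_isCoprime_of_dvd_left h
  have h2 := Int.isCoprime_iff_gcd_eq_one.1 h1
  norm_num at h2

/-- the operator form of the membership -/
theorem mem_Wf_iff {φ : V 3 M n} : φ ∈ Wf M n w e ↔
    ∀ b : ℤ, IsCoprime b 6 → (b ^ (2 * e)) • v.D b φ = (eps b * b ^ w) • φ := by
  constructor
  · intro h b hb
    obtain ⟨δ, hδ⟩ := exists_del M hb
    apply Subtype.ext
    funext γ
    have h1 := h b hb δ hδ γ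
    have h2 := v.isD b hb φ δ hδ γ
    have h3 : ((b ^ (2 * e)) • v.D b φ).1 γ = (b ^ (2 * e)) • (v.D b φ).1 γ := rfl
    have h4 : ((eps b * b ^ w) • φ).1 γ = (eps b * b ^ w) • φ.1 γ := rfl
    rw [h3, h4, zsmul_eq_mul, zsmul_eq_mul, h2]
    exact h1
  · intro h b hb δ hδ γ
    have h1 := congrArg (fun x : V 3 M n => x.1 γ) (h b hb)
    have h2 := v.isD b hb φ δ hδ γ
    have h3 : ((b ^ (2 * e)) • v.D b φ).1 γ = (b ^ (2 * e)) • (v.D b φ).1 γ := rfl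
    have h4 : ((eps b * b ^ w) • φ).1 γ = (eps b * b ^ w) • φ.1 γ := rfl
    change ((b ^ (2 * e)) • v.D b φ).1 γ = ((eps b * b ^ w) • φ).1 γ at h1
    rw [h3, h4, zsmul_eq_mul, zsmul_eq_mul, h2] at h1
    exact h1

/-- operators commuting with all `D_b` preserve the submodule -/
theorem stab_of_comm (f : AddMonoid.End (V 3 M n))
    (hf : ∀ b : ℤ, IsCoprime b 6 → v.D b * f = f * v.D b) : f ∈ stab (Wf M n w e) := by
  intro φ hφ
  rw [mem_Wf_iff v] at hφ ⊢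
  intro b hb
  have h1 : v.D b (f φ) = f (v.D b φ) := DFunLike.congr_fun (hf b hb) φ
  rw [h1, ← map_zsmul f, hφ b hb, map_zsmul]

/-- `T_ℓ` on the submodule -/
def Tw (ℓ : ℕ) (hℓ : Good 3 ℓ) : AddMonoid.End (Wf M n w e) :=
  rs _ ⟨v.T ℓ, stab_of_comm v w e _ (fun b hb => v.DT b hb ℓ hℓ)⟩

/-- the Galois action on the submodule -/
def rw' : GQ →* AddMonoid.End (Wf M n w e) where
  toFun g := rs _ ⟨v.ρ g, stab_of_comm v w e _ (fun b hb => v.ρD b hb g)⟩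
  map_one' := by
    ext φ : 1
    apply Subtype.ext
    rw [rs_apply]
    simp only [map_one]
    rfl
  map_mul' g h := by
    ext φ : 1
    apply Subtype.ext
    rw [rs_apply]
    simp only [map_mul]
    rfl

theorem Tw_apply (ℓ : ℕ) (hℓ : Good 3 ℓ) (φ : Wf M n w e) :
    (Tw v w e ℓ hℓ φ : V 3 M n) = v.T ℓ φ := rfl

theorem rw'_apply (g : GQ) (φ : Wf M n w e) : (rw' v w e g φ : V 3 M n) = v.ρ g φ := rfl

theorem two_powW (M n w e : ℕ) : ((2 ^ n : ℕ) : AddMonoid.End (Wf M n w e)) = 0 := by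
  ext φ : 1
  rw [AddMonoid.End.natCast_apply]
  apply Subtype.ext
  have h : ((2 ^ n : ℕ) : AddMonoid.End (V 3 M n)) φ.1 = 0 := by
    rw [VD.two_pow]
    rfl
  rw [AddMonoid.End.natCast_apply] at h
  exact h

theorem cast_congrW {M n : ℕ} (w e : ℕ) {a b : ℤ} (h : ((2 ^ n : ℕ) : ℤ) ∣ a - b) :
    (a : AddMonoid.End (Wf M n w e)) = (b : AddMonoid.End (Wf M n w e)) := by
  obtain ⟨c, hc⟩ := h
  have h1 : a = ((2 ^ n : ℕ) : ℤ) * c + b := by linarith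
  rw [h1, Int.cast_add, Int.cast_mul, Int.cast_natCast, two_powW, zero_mul, zero_add]

/-- the integer `eps(κ g) κ(g)^(w+1)`, `κ` modulo `3 2^K` -/
def dn (K w : ℕ) (g : GQ) : ℤ := eps (kn K g) * (kn K g : ℤ) ^ (w + 1)

theorem eps_kn_mul {K : ℕ} (hK : 1 ≤ K) (g h : GQ) :
    eps (kn K (g * h)) = eps (kn K g) * eps (kn K h) := by
  rw [← eps_mul (isCoprime_intCast (kn_coprime hK g)) (isCoprime_intCast (kn_coprime hK h))]
  apply eps_congr
  have h1 : kn K (g * h) ≡ kn K g * kn K h [MOD 3] := (kn_mul K g h).of_dvd (Dvd.intro _ rfl)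
  have h2 := Nat.modEq_iff_dvd.1 h1.symm
  push_cast at h2 ⊢
  exact h2

theorem dn_congr {K c : ℕ} {g : GQ} (hc : kn K g ≡ c [MOD 3 * 2 ^ K]) :
    ((2 ^ K : ℕ) : ℤ) ∣ dn K w g - eps c * (c : ℤ) ^ (w + 1) := by
  have h3 : kn K g ≡ c [MOD 3] := hc.of_dvd (Dvd.intro _ rfl)
  have h3' := Nat.modEq_iff_dvd.1 h3.symm
  have he : eps (kn K g) = eps c := eps_congr (by exact_mod_cast h3')
  have h2 : kn K g ≡ c [MOD 2 ^ K] := hc.of_dvd (Dvd.intro_left _ rfl)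
  have h2' := Nat.modEq_iff_dvd.1 h2.symm
  have h5 : ((2 ^ K : ℕ) : ℤ) ∣ (kn K g : ℤ) ^ (w + 1) - (c : ℤ) ^ (w + 1) :=
    h2'.trans (sub_dvd_pow_sub_pow _ _ _)
  unfold dn
  rw [he, ← mul_sub]
  exact h5.mul_left _

theorem dn_mul {K : ℕ} (hK : 1 ≤ K) (g h : GQ) :
    ((2 ^ K : ℕ) : ℤ) ∣ dn K w (g * h) - dn K w g * dn K w h := by
  have h2 : kn K (g * h) ≡ kn K g * kn K h [MOD 2 ^ K] :=
    (kn_mul K g h).of_dvd (Dvd.intro_left _ rfl)
  have h2' := Nat.modEq_iff_dvd.1 h2.symm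
  have h5 : ((2 ^ K : ℕ) : ℤ) ∣ (kn K (g * h) : ℤ) ^ (w + 1) -
      ((kn K g * kn K h : ℕ) : ℤ) ^ (w + 1) := h2'.trans (sub_dvd_pow_sub_pow _ _ _)
  unfold dn
  rw [eps_kn_mul hK, show eps (kn K g) * eps (kn K h) * (kn K (g * h) : ℤ) ^ (w + 1) -
    eps (kn K g) * (kn K g : ℤ) ^ (w + 1) * (eps (kn K h) * (kn K h : ℤ) ^ (w + 1)) =
    eps (kn K g) * eps (kn K h) * ((kn K (g * h) : ℤ) ^ (w + 1) -
      ((kn K g * kn K h : ℕ) : ℤ) ^ (w + 1)) by push_cast; ring]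
  exact h5.mul_left _

theorem dn_one (K : ℕ) : ((2 ^ K : ℕ) : ℤ) ∣ dn K w 1 - 1 := by
  have h := dn_congr w (kn_one K)
  rw [Nat.cast_one, eps_one, one_pow, mul_one] at h
  exact h

/-- `d(g) = eps(κ g) κ(g)^(w+1)` as a homomorphism into the endomorphisms of the submodule -/
def dW (M w e K : ℕ) (hK : 1 ≤ K) (hn : n ≤ K) : GQ →* AddMonoid.End (Wf M n w e) where
  toFun g := (dn K w g : AddMonoid.End (Wf M n w e))
  map_one' := by
    rw [cast_congrW w e (a := dn K w 1) (b := 1)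
      ((by exact_mod_cast pow_dvd_pow 2 hn : ((2 ^ n : ℕ) : ℤ) ∣ ((2 ^ K : ℕ) : ℤ)).trans
        (dn_one w K)), Int.cast_one]
  map_mul' g h := by
    rw [cast_congrW w e (a := dn K w (g * h)) (b := dn K w g * dn K w h)
      ((by exact_mod_cast pow_dvd_pow 2 hn : ((2 ^ n : ℕ) : ℤ) ∣ ((2 ^ K : ℕ) : ℤ)).trans
        (dn_mul w hK g h)), Int.cast_mul]

/-- `κ(g)^e` as a homomorphism -/
def kW (M w e K : ℕ) (hn : n ≤ K) : GQ →* AddMonoid.End (Wf M n w e) where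
  toFun g := (((kn K g : ℤ) ^ e : ℤ) : AddMonoid.End (Wf M n w e))
  map_one' := by
    have h2 : kn K 1 ≡ 1 [MOD 2 ^ n] :=
      (kn_one K).of_dvd ((pow_dvd_pow 2 hn).trans (Dvd.intro_left _ rfl))
    have h2' := Nat.modEq_iff_dvd.1 h2.symm
    rw [cast_congrW w e (a := (kn K 1 : ℤ) ^ e) (b := ((1 : ℕ) : ℤ) ^ e)
      (h2'.trans (sub_dvd_pow_sub_pow _ _ _)), Nat.cast_one, one_pow, Int.cast_one]
  map_mul' g h := by
    have h2 : kn K (g * h) ≡ kn K g * kn K h [MOD 2 ^ n] :=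
      (kn_mul K g h).of_dvd ((pow_dvd_pow 2 hn).trans (Dvd.intro_left _ rfl))
    have h2' := Nat.modEq_iff_dvd.1 h2.symm
    rw [cast_congrW w e (a := (kn K (g * h) : ℤ) ^ e) (b := ((kn K g * kn K h : ℕ) : ℤ) ^ e)
      (h2'.trans (sub_dvd_pow_sub_pow _ _ _)), Nat.cast_mul, mul_pow, Int.cast_mul]

theorem intCast_comm {A : Type*} [Ring A] (k : ℤ) (x : A) : (k : A) * x = x * (k : A) :=
  (Int.cast_commute k x).eq

/-- the twisted action `κ(g)^e ρ(g)` -/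
def rT (K : ℕ) (hn : n ≤ K) : GQ →* AddMonoid.End (Wf M n w e) where
  toFun g := kW M w e K hn g * rw' v w e g
  map_one' := by rw [map_one, map_one, one_mul]
  map_mul' g h := by
    have hc : rw' v w e g * kW M w e K hn h = kW M w e K hn h * rw' v w e g :=
      (intCast_comm _ _).symm
    rw [map_mul, map_mul, mul_assoc, mul_assoc, ← mul_assoc (rw' v w e g), hc, mul_assoc]

/-- an odd integer is injective on the submodule -/
theorem odd_inj {M n : ℕ} (w e : ℕ) {a : ℤ} (ha : Odd a) {x y : AddMonoid.End (Wf M n w e)}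
    (h : (a : AddMonoid.End (Wf M n w e)) * x = (a : AddMonoid.End (Wf M n w e)) * y) : x = y := by
  have hc : IsCoprime a ((2 ^ n : ℕ) : ℤ) := by
    push_cast
    apply IsCoprime.pow_right
    exact (Int.isCoprime_two_right).2 ha
  obtain ⟨s, t, hst⟩ := hc
  have h1 : ((s : ℤ) : AddMonoid.End (Wf M n w e)) * (a : AddMonoid.End (Wf M n w e)) = 1 := by
    rw [← Int.cast_mul, cast_congrW w e (a := s * a) (b := 1) ⟨-t, by linarith⟩, Int.cast_one]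
  calc x = ((s : ℤ) : AddMonoid.End (Wf M n w e)) * (a : AddMonoid.End (Wf M n w e)) * x := by
        rw [h1, one_mul]
    _ = y := by rw [mul_assoc, h, ← mul_assoc, h1, one_mul]

/-- `D_ℓ` on the submodule -/
def Dw (ℓ : ℕ) (hℓ : Good 3 ℓ) : AddMonoid.End (Wf M n w e) :=
  rs _ ⟨v.D ℓ, stab_of_comm v w e _ (fun _ hb => v.DD hb (good_coprime hℓ))⟩

theorem Dw_apply (ℓ : ℕ) (hℓ : Good 3 ℓ) (φ : Wf M n w e) :
    (Dw v w e ℓ hℓ φ : V 3 M n) = v.D ℓ φ := rfl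

/-- `ℓ^(2e) D_ℓ = eps(ℓ) ℓ^w` on the submodule -/
theorem Dw_eq {ℓ : ℕ} (hℓ : Good 3 ℓ) : (((ℓ : ℤ) ^ (2 * e) : ℤ) : AddMonoid.End (Wf M n w e)) *
    Dw v w e ℓ hℓ = ((eps ℓ * (ℓ : ℤ) ^ w : ℤ) : AddMonoid.End (Wf M n w e)) := by
  ext φ : 1
  have h1 := (mem_Wf_iff v w e).1 φ.2 ℓ (good_coprime hℓ)
  rw [mul_app, AddMonoid.End.intCast_apply, AddMonoid.End.intCast_apply]
  exact Subtype.ext h1

theorem Tw_eq {ℓ : ℕ} (hℓ : Good 3 ℓ) {g : GQ} (hg : IsFrob ℓ g) :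
    Tw v w e ℓ hℓ = rw' v w e g +
      ((ℓ : ℤ) : AddMonoid.End (Wf M n w e)) * (Dw v w e ℓ hℓ * rw' v w e g⁻¹) := by
  ext φ : 1
  apply Subtype.ext
  have h := DFunLike.congr_fun (v.frob ℓ hℓ g hg) φ.1
  rw [Tw_apply, add_app, mul_app, mul_app,
    AddMonoid.End.intCast_apply, natCast_zsmul, AddSubgroup.coe_add, rw'_apply,
    AddSubgroup.coe_nsmul, Dw_apply, rw'_apply]
  rw [mul_assoc, add_app, mul_app, mul_app,
    AddMonoid.End.natCast_apply] at h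
  exact h

theorem kW_frob {K : ℕ} (hn : n ≤ K) {ℓ : ℕ} (hℓ : Good 3 ℓ) {g : GQ}
    (hg : IsFrob ℓ g) :
    kW M w e K hn g = (((ℓ : ℤ) ^ e : ℤ) : AddMonoid.End (Wf M n w e)) := by
  have hk2 : kn K g ≡ ℓ [MOD 2 ^ n] :=
    (kn_frob hℓ hg).of_dvd ((pow_dvd_pow 2 hn).trans (Dvd.intro_left _ rfl))
  exact cast_congrW w e ((Nat.modEq_iff_dvd.1 hk2.symm).trans (sub_dvd_pow_sub_pow _ _ _))

theorem dW_congr {K : ℕ} (hK : 1 ≤ K) (hn : n ≤ K) {c : ℕ} {g : GQ}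
    (hc : kn K g ≡ c [MOD 3 * 2 ^ K]) :
    dW M w e K hK hn g =
      ((eps c * (c : ℤ) ^ (w + 1) : ℤ) : AddMonoid.End (Wf M n w e)) := by
  have h2K : ((2 ^ n : ℕ) : ℤ) ∣ ((2 ^ K : ℕ) : ℤ) := by exact_mod_cast pow_dvd_pow 2 hn
  exact cast_congrW w e (h2K.trans (dn_congr w hc))

/-- abstract form of the computation -/
theorem frob_alg {A : Type*} [Ring A] (L k k' d D T r r' : A) (ℓe : A)
    (h0 : ∀ x y : A, ℓe * x = ℓe * y → x = y)
    (hk : k = ℓe) (hkk : k * k' = 1) (hkd : k * d = d * k) (hd : d = ℓe * (ℓe * (L * D)))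
    (hT : T = r + L * (D * r')) : k * r + d * (k' * r') = ℓe * T := by
  have e7 : d * k' = ℓe * (L * D) := by
    apply h0
    rw [← hk, ← mul_assoc, hkd, mul_assoc, hkk, mul_one, hd, hk]
  rw [hT, hk, ← mul_assoc d, e7, mul_add]
  simp only [mul_assoc]

/-- **Frobenius** -/
theorem tt_frobW {K : ℕ} (hK : 1 ≤ K) (hn : n ≤ K) {ℓ : ℕ} (hℓ : Good 3 ℓ) {g : GQ}
    (hg : IsFrob ℓ g) : tt (rT v w e K hn) (dW M w e K hK hn) g =
      (((ℓ : ℤ) ^ e : ℤ) : AddMonoid.End (Wf M n w e)) * Tw v w e ℓ hℓ := by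
  have hodd : Odd (ℓ : ℤ) := by
    rcases hℓ.1.eq_two_or_odd' with h | h
    · exact absurd (by rw [h]; norm_num : ℓ ∣ 2 * 3) hℓ.2
    · exact_mod_cast h
  refine frob_alg ((ℓ : ℤ) : AddMonoid.End (Wf M n w e)) (kW M w e K hn g) (kW M w e K hn g⁻¹)
    (dW M w e K hK hn g) (Dw v w e ℓ hℓ) (Tw v w e ℓ hℓ) (rw' v w e g) (rw' v w e g⁻¹)
    (((ℓ : ℤ) ^ e : ℤ) : AddMonoid.End (Wf M n w e))
    (fun x y h => odd_inj w e hodd.pow h) (kW_frob w e hn hℓ hg) ?_ ?_ ?_ (Tw_eq v w e hℓ hg)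
  · rw [← map_mul, mul_inv_cancel, map_one]
  · exact intCast_comm _ _
  · rw [dW_congr w e hK hn (kn_frob hℓ hg),
      show eps ℓ * (ℓ : ℤ) ^ (w + 1) = (ℓ : ℤ) * (eps ℓ * (ℓ : ℤ) ^ w) by ring, Int.cast_mul,
      ← Dw_eq v w e hℓ, ← mul_assoc, ← mul_assoc, ← mul_assoc, ← Int.cast_mul, ← Int.cast_mul,
      ← Int.cast_mul]
    congr 2
    ring

end Vale.Agent.P022.H724.L3
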