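import Vale.Agent.P022.H724.L3.Fam
import Vale.Agent.P022.H20.L3.WdLim

/-!
# P022-L3, [WD-FAM]: the structure `Fam (w + 1)` of helper20
-/

set_option autoImplicit false

open scoped MatrixGroups
open NumberField

noncomputable section

namespace Vale.Agent.P022.H724.L3

open Vale.Agent.P022 Vale.Agent.P022.L3 Vale.Agent.P022.H853
open Vale.Agent.P022.H583

variable (w : ℕ) (v : ∀ n, VD (n + 2) n)

/-- values of the determinant: a congruence modulo `2^(n+2)` and one modulo 3 -/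
theorem dA_value (n : ℕ) (g : GQ) (a s : ℤ) (h2 : ((2 ^ (n + 2) : ℕ) : ℤ) ∣ (kn (n + 2) g : ℤ) - a)
    (h3 : eps (kn (n + 2) g) = s) : dA w n g = ((s * a ^ (w + 1) : ℤ) : Aw w n) := by
  funext e
  show ((dn (n + 2) w g : ℤ) : AddMonoid.End (Wf (n + 2) n w e)) =
    ((s * a ^ (w + 1) : ℤ) : AddMonoid.End (Wf (n + 2) n w e))
  refine cast_congrW w e ?_
  have h4 : ((2 ^ (n + 2) : ℕ) : ℤ) ∣ (kn (n + 2) g : ℤ) ^ (w + 1) - a ^ (w + 1) :=
    h2.trans (sub_dvd_pow_sub_pow _ _ _)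
  have h5 : ((2 ^ n : ℕ) : ℤ) ∣ ((2 ^ (n + 2) : ℕ) : ℤ) := by
    exact_mod_cast pow_dvd_pow 2 (by omega)
  unfold dn
  rw [h3, ← mul_sub]
  exact (h5.trans h4).mul_left _

theorem two_notMem {P : Ideal (𝓞 Qb)} (hP : P.IsPrime) (h3 : ((3 : ℕ) : 𝓞 Qb) ∈ P) (K : ℕ) :
    ((2 ^ K : ℕ) : 𝓞 Qb) ∉ P := by
  intro h
  have h1 := H20.dvd_of_mem Nat.prime_three hP h3 (d := ((2 ^ K : ℕ) : ℤ)) (by exact_mod_cast h)
  have h2 : 3 ∣ 2 ^ K := by exact_mod_cast h1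
  have h4 := Nat.prime_three.dvd_of_dvd_pow h2
  omega

theorem kn_three {K : ℕ} (g : GQ) : kn K g ≡ (cyc 3 g : ZMod 3).val [MOD 3] :=
  cyc_mod (3 * 2 ^ K) (Dvd.intro _ rfl) g

theorem kn_of_pow {K q : ℕ} {P : Ideal (𝓞 Qb)} (hP : P.IsPrime) (h3 : ((3 : ℕ) : 𝓞 Qb) ∈ P)
    {g : GQ} (hg : ∀ x : 𝓞 Qb, g • x - x ^ q ∈ P) :
    ((2 ^ K : ℕ) : ℤ) ∣ (kn K g : ℤ) - q := by
  have : NeZero (2 ^ K) := ⟨by positivity⟩
  have h := cyc_of_pow (m := 3 * 2 ^ K) (m' := 2 ^ K) (Dvd.intro_left _ rfl) hP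
    (two_notMem hP h3 K) hg
  exact Nat.modEq_iff_dvd.1 h.symm

theorem eps_of_mod {a c : ℕ} (h : a ≡ c [MOD 3]) : eps a = eps c :=
  eps_congr (by exact_mod_cast Nat.modEq_iff_dvd.1 h.symm)

/-- **[WD-FAM]** -/
def famS (hw : Odd w) : H20.L3.Fam (w + 1) where
  A := Aw w
  α n := (al w v n).toRingHom
  t n g := tA w v n g
  d n g := dA w n g
  app m g := by
    obtain ⟨Q, hQ⟩ := exists_poly w v m g
    obtain ⟨R, hR⟩ := exists_const w v m g
    exact ⟨Q, R, fun n hn => ⟨hQ n hn, hR n hn⟩⟩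
  t1 n := tt_one
  tc n g h := tt_comm (fr_one w v n) (tA_mem w v n) g h
  tm n g h := (tt_mul (fr_one w v n) (tA_mem w v n h)).symm
  d1 n := map_one _
  dm n g h := map_mul _ _ _
  cont n := ⟨Ug v n, good_Ug v n, fun g u hu => by
    have h1 : u⁻¹ ∈ Ug v n := (Ug v n).inv_mem hu
    have h2 : rA w v n (g * u) = rA w v n g := by rw [map_mul, rA_one w v n hu, mul_one]
    have h3 : dA w n (g * u) = dA w n g := by rw [map_mul, dA_one w v n hu, mul_one]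
    have h4 : rA w v n (g * u)⁻¹ = rA w v n g⁻¹ := by
      rw [mul_inv_rev, map_mul, rA_one w v n h1, one_mul]
    refine ⟨?_, h3⟩
    show rA w v n (g * u) + dA w n (g * u) * rA w v n (g * u)⁻¹ =
      rA w v n g + dA w n g * rA w v n g⁻¹
    rw [h2, h3, h4]⟩
  frT n ℓ φ hφ := by
    show tA w v n φ = FreeAlgebra.lift ℤ (gen w v n) (FreeAlgebra.ι ℤ (Sum.inl ℓ))
    rw [FreeAlgebra.lift_ι_apply]
    exact tA_frob w v n ℓ hφ
  frS n ℓ φ hφ := by
    show dA w n φ = FreeAlgebra.lift ℤ (gen w v n) (FreeAlgebra.ι ℤ (Sum.inr ℓ))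
    rw [FreeAlgebra.lift_ι_apply]
    exact dA_frob w v n ℓ hφ
  dc n c hc := by
    have h1 : (kn (n + 2) c : ZMod (3 * 2 ^ (n + 2))) = ((-1 : ℤ) : ZMod (3 * 2 ^ (n + 2))) := by
      rw [kn_cast, cyc_conj hc, Int.cast_neg, Int.cast_one]
    have h2 : ((3 * 2 ^ (n + 2) : ℕ) : ℤ) ∣ (kn (n + 2) c : ℤ) - (-1) := by
      rw [← ZMod.intCast_zmod_eq_zero_iff_dvd, Int.cast_sub, Int.cast_natCast, h1, sub_self]
    have h3 := dA_value w n c (-1) (-1)
      ((by exact_mod_cast Dvd.intro_left 3 rfl :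
        ((2 ^ (n + 2) : ℕ) : ℤ) ∣ ((3 * 2 ^ (n + 2) : ℕ) : ℤ)).trans h2)
      (by
        rw [eps_congr (b := -1) ((by exact_mod_cast Dvd.intro _ rfl :
          (3 : ℤ) ∣ ((3 * 2 ^ (n + 2) : ℕ) : ℤ)).trans h2)]
        decide)
    rw [h3, (show Even (w + 1) from hw.add_one).neg_one_pow, mul_one, Int.cast_neg, Int.cast_one]
  dt n P hP h3 g hg s hs hgs := by
    have h1 := dA_value w n g 1 (-1)
      (by
        have h := kn_of_pow (K := n + 2) (q := 1) hP h3 (g := g)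
          (fun x => by rw [pow_one]; exact hg x)
        exact_mod_cast h)
      (by
        rw [eps_of_mod (kn_three g), cyc_three_neg hs hgs]
        decide)
    rw [h1, one_pow, mul_one, Int.cast_neg, Int.cast_one]
  ds n P hP h3 g hg s hs hgs := by
    have h1 := dA_value w n g 3 1
      (by exact_mod_cast kn_of_pow (K := n + 2) (q := 3) hP h3 (g := g) hg)
      (by
        rw [eps_of_mod (kn_three g), cyc_three_one hs hgs]
        decide)
    rw [h1, one_mul, Int.cast_pow, Int.cast_ofNat]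

theorem famS_α (hw : Odd w) (n : ℕ) (Q : FreeAlgebra ℤ (Gen 3)) :
    (famS w v hw).α n Q = al w v n Q := rfl

/-- the data `v` from `[GAL]` and `[HEX]` -/
theorem exists_v (hG : GALStmt) (hH : HEXStmt) : Nonempty (∀ n, VD (n + 2) n) :=
  ⟨fun n => (exists_vd hG hH (by omega : 2 ≤ n + 2) n).some⟩

/-- the last plug: `Ker` for every `famS` gives `Fam i` with `Ker` for all even `i > 0` -/
theorem fam_ker (hG : GALStmt) (hH : HEXStmt)
    (hK : ∀ (w : ℕ) (hw : Odd w) (v : ∀ n, VD (n + 2) n), (famS w v hw).Ker) :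
    ∀ i, Even i → 0 < i → ∃ F : H20.L3.Fam i, F.Ker := by
  intro i hi h0
  obtain ⟨v⟩ := exists_v hG hH
  obtain ⟨w, rfl⟩ : ∃ w, i = w + 1 := ⟨i - 1, by omega⟩
  have hw : Odd w := by
    rcases Nat.even_or_odd w with h | h
    · exact absurd hi (Nat.not_even_iff_odd.2 h.add_one)
    · exact h
  exact ⟨famS w v hw, hK w hw v⟩

end Vale.Agent.P022.H724.L3
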